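import Vale.Agent.P078.MKS.Assembly.Ops

/-!
The algebra spanned by the normaliser, and partitions.
-/

namespace Vale.Agent.P078.MKS

variable {H : Type} [NormedAddCommGroup H] [InnerProductSpace ℂ H] [CompleteSpace H]
variable {M A : VonNeumannAlgebra H} {e : H →L[ℂ] H}

theorem normaliser_star {v : H →L[ℂ] H} (hv : v ∈ normaliser M A) :
    star v ∈ normaliser M A := by
  refine ⟨star_mem hv.1, ?_, fun a ha => ?_⟩
  · have := congrArg star hv.2.1
    rwa [star_mul, star_mul, ← mul_assoc] at this
  · rw [star_star]; exact (hv.2.2 a ha).symm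

theorem move_right (hA : IsMASA M A) {v b : H →L[ℂ] H} (hv : v ∈ normaliser M A) (hb : b ∈ A) :
    v * b = v * b * star v * v := by
  have h1 : star v * v ∈ A := by simpa using (hv.2.2 1 (one_mem A)).2
  calc v * b = v * star v * v * b := by rw [hv.2.1]
    _ = v * (star v * v * b) := by simp only [mul_assoc]
    _ = v * (b * (star v * v)) := by rw [hA.2.1 _ h1 b hb]
    _ = _ := by simp only [mul_assoc]

theorem normaliser_mul (hA : IsMASA M A) {v w : H →L[ℂ] H} (hv : v ∈ normaliser M A)
    (hw : w ∈ normaliser M A) : v * w ∈ normaliser M A := by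
  have h1 : star v * v ∈ A := by simpa using (hv.2.2 1 (one_mem A)).2
  have h2 : w * star w ∈ A := by simpa using (hw.2.2 1 (one_mem A)).1
  refine ⟨mul_mem hv.1 hw.1, ?_, fun a ha => ?_⟩
  · calc v * w * star (v * w) * (v * w) = v * (w * star w * (star v * v)) * w := by
          simp only [star_mul, mul_assoc]
      _ = v * (star v * v * (w * star w)) * w := by rw [hA.2.1 _ h1 _ h2]
      _ = v * star v * v * (w * star w * w) := by simp only [mul_assoc]
      _ = v * w := by rw [hv.2.1, hw.2.1]
  · constructor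
    · have := (hv.2.2 _ (hw.2.2 a ha).1).1
      simpa only [star_mul, mul_assoc] using this
    · have := (hw.2.2 _ (hv.2.2 a ha).2).2
      simpa only [star_mul, mul_assoc] using this

theorem one_mem_normaliser : (1 : H →L[ℂ] H) ∈ normaliser M A :=
  ⟨one_mem M, by simp, fun a ha => by simpa using ha⟩

theorem gen_mem_normSpan {a v : H →L[ℂ] H} (ha : a ∈ A) (hv : v ∈ normaliser M A) :
    a * v ∈ normSpan M A 1 :=
  Submodule.subset_span ⟨by simp, a, ha, v, hv, rfl⟩

theorem normSpan_mul (hA : IsMASA M A) {x y : H →L[ℂ] H} (hx : x ∈ normSpan M A 1)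
    (hy : y ∈ normSpan M A 1) : x * y ∈ normSpan M A 1 := by
  induction hx using Submodule.span_induction with
  | zero => simp
  | add x x' _ _ h h' => rw [add_mul]; exact add_mem h h'
  | smul c x _ h => rw [smul_mul_assoc]; exact Submodule.smul_mem _ _ h
  | mem x hx =>
    obtain ⟨-, a, ha, v, hv, rfl⟩ := hx
    induction hy using Submodule.span_induction with
    | zero => simp
    | add y y' _ _ h h' => rw [mul_add]; exact add_mem h h'
    | smul c y _ h => rw [mul_smul_comm]; exact Submodule.smul_mem _ _ h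
    | mem y hy =>
      obtain ⟨-, b, hb, w, hw, rfl⟩ := hy
      have : a * v * (b * w) = a * (v * b * star v) * (v * w) := by
        calc a * v * (b * w) = a * (v * b) * w := by simp only [mul_assoc]
          _ = a * (v * b * star v * v) * w := by rw [← move_right hA hv hb]
          _ = _ := by simp only [mul_assoc]
      rw [this]
      exact gen_mem_normSpan (mul_mem ha (hv.2.2 b hb).1) (normaliser_mul hA hv hw)

theorem normSpan_star (hA : IsMASA M A) {x : H →L[ℂ] H} (hx : x ∈ normSpan M A 1) :
    star x ∈ normSpan M A 1 := by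
  induction hx using Submodule.span_induction with
  | zero => simp
  | add x x' _ _ h h' => rw [star_add]; exact add_mem h h'
  | smul c x _ h => rw [star_smul]; exact Submodule.smul_mem _ _ h
  | mem x hx =>
    obtain ⟨-, a, ha, v, hv, rfl⟩ := hx
    rw [star_mul, move_right hA (normaliser_star hv) (star_mem ha), star_star]
    exact gen_mem_normSpan (by simpa using ((normaliser_star hv).2.2 _ (star_mem ha)).1)
      (normaliser_star hv)

/-- The star algebra spanned by `A` and its normaliser. -/
noncomputable def normStar (hA : IsMASA M A) : StarSubalgebra ℂ (H →L[ℂ] H) where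
  carrier := normSpan M A 1
  mul_mem' := normSpan_mul hA
  one_mem' := by simpa using gen_mem_normSpan (one_mem A) (one_mem_normaliser (M := M) (A := A))
  add_mem' := add_mem
  zero_mem' := zero_mem _
  algebraMap_mem' c := by
    rw [Algebra.algebraMap_eq_smul_one]
    exact Submodule.smul_mem _ _
      (by simpa using gen_mem_normSpan (one_mem A) (one_mem_normaliser (M := M) (A := A)))
  star_mem' := normSpan_star hA

theorem centralizer_mono_normStar (hA : IsMASA M A) {x : H →L[ℂ] H}
    (hx : x ∈ Set.centralizer (Set.centralizer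
      ((A.toStarSubalgebra : Set (H →L[ℂ] H)) ∪ normaliser M A))) :
    x ∈ Set.centralizer (Set.centralizer (normStar hA : Set (H →L[ℂ] H))) := by
  refine Set.centralizer_subset (Set.centralizer_subset ?_) hx
  rintro z (hz | hz)
  · show z ∈ normSpan M A 1
    simpa using gen_mem_normSpan (M := M) hz one_mem_normaliser
  · show z ∈ normSpan M A 1
    simpa using gen_mem_normSpan (one_mem A) hz

theorem compress_mem (hA : IsMASA M A) (heA : e ∈ A) (he : IsStarProjection e) {x : H →L[ℂ] H}
    (hx : x ∈ normSpan M A 1) : e * x * e ∈ normSpan M A e := by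
  induction hx using Submodule.span_induction with
  | zero => simp
  | add x x' _ _ h h' => rw [mul_add, add_mul]; exact add_mem h h'
  | smul c x _ h => rw [mul_smul_comm, smul_mul_assoc]; exact Submodule.smul_mem _ _ h
  | mem x hx =>
    obtain ⟨-, a, ha, v, hv, rfl⟩ := hx
    refine Submodule.subset_span ⟨?_, e * a * (v * e * star v),
      mul_mem (mul_mem heA ha) (hv.2.2 e heA).1, v, hv, ?_⟩
    · simp only [← mul_assoc, he.isIdempotentElem.eq]
      simp only [mul_assoc, he.isIdempotentElem.eq]
    · calc e * (a * v) * e = e * a * (v * e) := by simp only [mul_assoc]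
        _ = e * a * (v * e * star v * v) := by rw [← move_right hA hv heA]
        _ = _ := by simp only [mul_assoc]

theorem proj_mem_normSpan (heA : e ∈ A) (he : IsStarProjection e) : e ∈ normSpan M A e :=
  Submodule.subset_span ⟨by rw [he.isIdempotentElem.eq, he.isIdempotentElem.eq], e, heA, 1,
    one_mem_normaliser, by rw [mul_one]⟩

theorem conj_mem (hA : IsMASA M A) {p : H →L[ℂ] H} (hp : p ∈ A) (hep : e * p = p)
    (hpe : p * e = p) {x : H →L[ℂ] H} (hx : x ∈ normSpan M A e) :
    p * x * p ∈ normSpan M A e := by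
  induction hx using Submodule.span_induction with
  | zero => simp
  | add x x' _ _ h h' => rw [mul_add, add_mul]; exact add_mem h h'
  | smul c x _ h => rw [mul_smul_comm, smul_mul_assoc]; exact Submodule.smul_mem _ _ h
  | mem x hx =>
    obtain ⟨-, a, ha, v, hv, rfl⟩ := hx
    refine Submodule.subset_span ⟨?_, p * a * (v * p * star v),
      mul_mem (mul_mem hp ha) (hv.2.2 p hp).1, v, hv, ?_⟩
    · simp only [← mul_assoc, hep]
      simp only [mul_assoc, hpe]
    · calc p * (a * v) * p = p * a * (v * p) := by simp only [mul_assoc]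
        _ = p * a * (v * p * star v * v) := by rw [← move_right hA hv hp]
        _ = _ := by simp only [mul_assoc]

theorem normSpan_cor (hA : IsMASA M A) {x : H →L[ℂ] H} (hx : x ∈ normSpan M A e) : Cor M e x := by
  induction hx using Submodule.span_induction with
  | zero => exact Cor.zero
  | add x x' _ _ h h' => exact h.add h'
  | smul c x _ h => exact h.csmul c
  | mem x hx =>
    obtain ⟨h, a, ha, v, hv, rfl⟩ := hx
    exact ⟨mul_mem (hA.1 a ha) hv.1, h⟩

section Partition

variable {r s : ℕ} {P : Fin r → (H →L[ℂ] H)} {Q : Fin s → (H →L[ℂ] H)}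

theorem IsPartition.mul_e (hP : IsPartition A e P) (i : Fin r) :
    e * P i = P i ∧ P i * e = P i := by
  classical
  rw [← hP.2.2]
  constructor
  · rw [Finset.sum_mul, Finset.sum_eq_single i (fun j _ hj => hP.2.1 j i hj) (by simp),
      (hP.1 i).2.isIdempotentElem.eq]
  · rw [Finset.mul_sum, Finset.sum_eq_single i (fun j _ hj => hP.2.1 i j (Ne.symm hj)) (by simp),
      (hP.1 i).2.isIdempotentElem.eq]

/-- The common refinement. -/
def prodPart (P : Fin r → (H →L[ℂ] H)) (Q : Fin s → (H →L[ℂ] H)) :
    Fin (r * s) → (H →L[ℂ] H) :=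
  fun k => P (finProdFinEquiv.symm k).1 * Q (finProdFinEquiv.symm k).2

theorem isPartition_prod (hA : IsMASA M A) (hP : IsPartition A e P) (hQ : IsPartition A e Q) :
    IsPartition A e (prodPart P Q) := by
  refine ⟨fun k => ?_, fun k l hkl => ?_, ?_⟩
  · set i := (finProdFinEquiv.symm k).1
    set j := (finProdFinEquiv.symm k).2
    exact isPr_mul hA.2.1 (hP.1 i) (hQ.1 j)
  · set i := (finProdFinEquiv.symm k).1
    set j := (finProdFinEquiv.symm k).2
    set i' := (finProdFinEquiv.symm l).1
    set j' := (finProdFinEquiv.symm l).2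
    show P i * Q j * (P i' * Q j') = 0
    rw [show P i * Q j * (P i' * Q j') = P i * (Q j * P i') * Q j' by simp only [mul_assoc],
      hA.2.1 _ (hQ.1 j).1 _ (hP.1 i').1,
      show P i * (P i' * Q j) * Q j' = P i * P i' * (Q j * Q j') by simp only [mul_assoc]]
    rcases eq_or_ne i i' with h | h
    · rcases eq_or_ne j j' with h' | h'
      · exact absurd (finProdFinEquiv.symm.injective (Prod.ext h h')) hkl
      · rw [hQ.2.1 j j' h', mul_zero]
    · rw [hP.2.1 i i' h, zero_mul]
  · simp only [prodPart]
    rw [← Equiv.sum_comp finProdFinEquiv]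
    simp only [Equiv.symm_apply_apply, Fintype.sum_prod_type, ← Finset.mul_sum, ← Finset.sum_mul,
      hP.2.2, hQ.2.2]
    have h : e * e = e := by
      nth_rw 2 [← hP.2.2]
      rw [Finset.mul_sum, Finset.sum_congr rfl fun i _ => (hP.mul_e i).1, hP.2.2]
    exact h

theorem pinch_prod (hA : IsMASA M A) (hP : IsPartition A e P) (hQ : IsPartition A e Q)
    (y : H →L[ℂ] H) : pinch (prodPart P Q) y = pinch Q (pinch P y) := by
  simp only [pinch, prodPart]
  rw [← Equiv.sum_comp finProdFinEquiv]
  simp only [Equiv.symm_apply_apply, Fintype.sum_prod_type, Finset.mul_sum, Finset.sum_mul]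
  rw [Finset.sum_comm]
  refine Finset.sum_congr rfl fun j _ => Finset.sum_congr rfl fun i _ => ?_
  nth_rw 1 [hA.2.1 _ (hP.1 i).1 _ (hQ.1 j).1]
  simp only [mul_assoc]

theorem pinch_pinch_comm (hA : IsMASA M A) (hP : IsPartition A e P) (hQ : IsPartition A e Q)
    (y : H →L[ℂ] H) : pinch P (pinch Q y) = pinch Q (pinch P y) := by
  simp only [pinch, Finset.mul_sum, Finset.sum_mul]
  rw [Finset.sum_comm]
  refine Finset.sum_congr rfl fun j _ => Finset.sum_congr rfl fun i _ => ?_
  calc P i * (Q j * y * Q j) * P i = P i * Q j * y * (Q j * P i) := by simp only [mul_assoc]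
    _ = Q j * P i * y * (P i * Q j) := by
        rw [hA.2.1 _ (hP.1 i).1 _ (hQ.1 j).1]
    _ = _ := by simp only [mul_assoc]

omit [CompleteSpace H] in
theorem pinch_add (P : Fin r → (H →L[ℂ] H)) (x y : H →L[ℂ] H) :
    pinch P (x + y) = pinch P x + pinch P y := by
  simp only [pinch, mul_add, add_mul, Finset.sum_add_distrib]

omit [CompleteSpace H] in
theorem pinch_sub (P : Fin r → (H →L[ℂ] H)) (x y : H →L[ℂ] H) :
    pinch P (x - y) = pinch P x - pinch P y := by
  simp only [pinch, mul_sub, sub_mul, Finset.sum_sub_distrib]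

omit [CompleteSpace H] in
theorem pinch_smul (P : Fin r → (H →L[ℂ] H)) (c : ℝ) (x : H →L[ℂ] H) :
    pinch P (c • x) = c • pinch P x := by
  simp only [pinch, mul_smul_comm, smul_mul_assoc, Finset.smul_sum]

theorem pinch_self (hP : IsPartition A e P) : pinch P e = e := by
  rw [pinch, Finset.sum_congr rfl fun i _ => ?_, hP.2.2]
  rw [(hP.mul_e i).2, (hP.1 i).2.isIdempotentElem.eq]

theorem pinch_mono (hP : IsPartition A e P) {x y : H →L[ℂ] H} (h : x ≤ y) :
    pinch P x ≤ pinch P y :=
  Finset.sum_le_sum fun i _ => by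
    simpa [(hP.1 i).2.isSelfAdjoint.star_eq] using conj_le h (P i)

theorem pinch_bounds (hP : IsPartition A e P) {x : H →L[ℂ] H} {l u : ℝ} (h1 : l • e ≤ x)
    (h2 : x ≤ u • e) : l • e ≤ pinch P x ∧ pinch P x ≤ u • e := by
  constructor
  · simpa [pinch_smul, pinch_self hP] using pinch_mono hP h1
  · simpa [pinch_smul, pinch_self hP] using pinch_mono hP h2

theorem pinch_selfAdjoint' (hP : IsPartition A e P) {x : H →L[ℂ] H} (hx : IsSelfAdjoint x) :
    IsSelfAdjoint (pinch P x) := by
  show star (pinch P x) = pinch P x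
  simp only [pinch, star_sum, star_mul, (hP.1 _).2.isSelfAdjoint.star_eq, hx.star_eq, mul_assoc]

theorem pinch_mem_normSpan (hA : IsMASA M A) (hP : IsPartition A e P) {x : H →L[ℂ] H}
    (hx : x ∈ normSpan M A e) : pinch P x ∈ normSpan M A e :=
  sum_mem fun i _ => conj_mem hA (hP.1 i).1 (hP.mul_e i).1 (hP.mul_e i).2 hx

end Partition

end Vale.Agent.P078.MKS
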