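import Vale.Agent.P078.MKS.Assembly.L2
import Vale.Agent.P078.MKS.Assembly.Span

/-!
Approximation by the normaliser span inside prescribed bounds.
-/

namespace Vale.Agent.P078.MKS

variable {H : Type} [NormedAddCommGroup H] [InnerProductSpace ℂ H] [CompleteSpace H]
variable {M A : VonNeumannAlgebra H} {e : H →L[ℂ] H} {τ : (H →L[ℂ] H) →ₗ[ℂ] ℂ}

theorem inv_smul_le' {c : ℝ} (hc : 0 < c) {x y : H →L[ℂ] H} (h : x ≤ c • y) : c⁻¹ • x ≤ y := by
  have := smul_le_smul_of_nonneg_left h (inv_nonneg.2 hc.le)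
  rwa [smul_smul, inv_mul_cancel₀ hc.ne', one_smul] at this

theorem le_inv_smul' {c : ℝ} (hc : 0 < c) {x y : H →L[ℂ] H} (h : c • x ≤ y) : x ≤ c⁻¹ • y := by
  have := smul_le_smul_of_nonneg_left h (inv_nonneg.2 hc.le)
  rwa [smul_smul, inv_mul_cancel₀ hc.ne', one_smul] at this

theorem norm_le_one (he : IsStarProjection e) {x : H →L[ℂ] H} (hx : IsSelfAdjoint x) {u : ℝ}
    (hu : u ≤ 1) (h1 : (-1 : ℝ) • e ≤ x) (h2 : x ≤ u • e) : ‖x‖ ≤ 1 := by
  refine norm_le_of_bounds hx zero_le_one (le_trans ?_ h1)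
    (h2.trans ((smul_le_smul_right' hu he.nonneg).trans ?_))
  · rw [neg_smul, neg_smul, neg_le_neg_iff, one_smul, one_smul]
    exact proj_le_one he
  · rw [one_smul, one_smul]
    exact proj_le_one he

/-- Approximation by the normaliser span inside prescribed bounds. -/
theorem approx (hK : KaplanskyStatement) (hT : TraceStatement) (hA : IsMASA M A) (heA : e ∈ A)
    (he : IsStarProjection e) (hτ : IsTrace M e τ) {w : H →L[ℂ] H} (hwc : Cor M e w)
    (hws : IsSelfAdjoint w)
    (hbic : w ∈ Set.centralizer (Set.centralizer (normStar hA : Set (H →L[ℂ] H))))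
    {t η : ℝ} (ht : 0 ≤ t) (ht1 : t ≤ 1) (hη : 0 < η) (h1 : (-1 : ℝ) • (1 : H →L[ℂ] H) ≤ w)
    (h2 : w ≤ t • 1) :
    ∃ y ∈ normSpan M A e, IsSelfAdjoint y ∧ (-1 : ℝ) • e ≤ y ∧ y ≤ t • e ∧
      n2 τ (y - w) ≤ η := by
  classical
  set k := (1 + t) / 2 with hkdef
  set l := (1 - t) / 2 with hldef
  have hk : 0 < k := by positivity
  set zk := k⁻¹ • (w + l • 1) with hzkdef
  have hzs : IsSelfAdjoint zk :=
    (IsSelfAdjoint.all k⁻¹).smul (hws.add ((IsSelfAdjoint.all l).smul (IsSelfAdjoint.one _)))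
  have hzn : ‖zk‖ ≤ 1 := by
    refine norm_le_of_bounds hzs zero_le_one ?_ ?_
    · refine le_inv_smul' hk ?_
      rw [smul_smul,
        show k * (-1) = -1 + l by rw [hkdef, hldef]; ring, add_smul]
      exact add_le_add h1 le_rfl
    · refine inv_smul_le' hk ?_
      rw [smul_smul,
        show k * 1 = t + l by rw [hkdef, hldef]; ring, add_smul]
      exact add_le_add h2 le_rfl
  have hzb : zk ∈ Set.centralizer (Set.centralizer (normStar hA : Set (H →L[ℂ] H))) := fun T hT' => by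
    rw [hzkdef, mul_smul_comm, smul_mul_assoc, mul_add, add_mul, hbic T hT', mul_smul_comm,
      smul_mul_assoc, mul_one, one_mul]
  obtain ⟨F, δ, hδ, hF⟩ := (hT H M e τ (hA.1 e heA) he hτ).2 (η ^ 2) (by positivity)
  obtain ⟨a, ha, has, han, haF⟩ := hK H (normStar hA) zk hzs hzn hzb (F.image fun ξ => e ξ) δ hδ
  set y := e * (k • a - l • 1) * e with hydef
  have hym : y ∈ normSpan M A e := by
    refine compress_mem hA heA he ?_
    exact sub_mem (Submodule.smul_of_tower_mem _ k ha)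
      (Submodule.smul_of_tower_mem _ l (normStar hA).one_mem)
  have hys : IsSelfAdjoint y := by
    have h := (((IsSelfAdjoint.all k).smul has).sub
      ((IsSelfAdjoint.all l).smul (IsSelfAdjoint.one (H →L[ℂ] H)))).conjugate e
    rwa [he.isSelfAdjoint.star_eq] at h
  obtain ⟨b1, b2⟩ := bounds_of_norm_le has han
  have hyb : (-1 : ℝ) • e ≤ y ∧ y ≤ t • e := by
    refine conj_bounds he ?_ ?_
    · have := smul_le_smul_of_nonneg_left b1 hk.le
      rw [smul_smul] at this
      rw [le_sub_iff_add_le, ← add_smul]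
      refine le_trans (le_of_eq ?_) this
      congr 1; rw [hkdef, hldef]; ring
    · have := smul_le_smul_of_nonneg_left b2 hk.le
      rw [smul_smul] at this
      rw [sub_le_iff_le_add, ← add_smul]
      refine this.trans (le_of_eq ?_)
      congr 1; rw [hkdef, hldef]; ring
  refine ⟨y, hym, hys, hyb.1, hyb.2, ?_⟩
  have hwe : w = e * (k • zk - l • 1) * e := by
    rw [hzkdef, smul_smul, mul_inv_cancel₀ hk.ne', one_smul, add_sub_cancel_right, hwc.2]
  have hdiff : y - w = e * (k • (a - zk)) * e := by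
    rw [hydef, hwe, ← sub_mul, ← mul_sub, smul_sub]; congr 2; abel
  have hnorm : ‖y - w‖ ≤ 2 := by
    rw [hdiff]
    refine (norm_mul_le _ _).trans ((mul_le_of_le_one_right (norm_nonneg _) he.norm_le).trans ?_)
    refine (norm_mul_le _ _).trans ((mul_le_of_le_one_left (norm_nonneg _) he.norm_le).trans ?_)
    rw [norm_smul, Real.norm_of_nonneg hk.le]
    calc k * ‖a - zk‖ ≤ 1 * 2 := mul_le_mul (by rw [hkdef]; linarith)
          ((norm_sub_le _ _).trans (by linarith)) (norm_nonneg _) zero_le_one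
      _ = 2 := one_mul _
  have hv : ∀ ξ ∈ F, ‖(y - w) ξ‖ < δ := by
    intro ξ hξ
    have h := haF (e ξ) (Finset.mem_image_of_mem _ hξ)
    rw [hdiff, mul_apply_eq_comp, mul_apply_eq_comp]
    refine lt_of_le_of_lt (Singular.norm_proj_apply_le he _) ?_
    rw [smul_apply, norm_smul, Real.norm_of_nonneg hk.le, ← neg_sub zk a, neg_apply, norm_neg]
    exact lt_of_le_of_lt (mul_le_of_le_one_left (norm_nonneg _) (by rw [hkdef]; linarith)) h
  have hyc := (normSpan_cor hA hym).sub hwc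
  exact Real.sqrt_le_iff.2 ⟨hη.le, (hF _ hyc.1 hyc.2 hnorm hv).le⟩

theorem piece_pinch {r : ℕ} {G : Fin r → (H →L[ℂ] H)} (hG : IsPartition A e G) (y : H →L[ℂ] H)
    (i : Fin r) : G i * pinch G y * G i = G i * y * G i := by
  rw [pinch, Finset.mul_sum, Finset.sum_mul, Finset.sum_eq_single i]
  · simp only [← mul_assoc, (hG.1 i).2.isIdempotentElem.eq]
    simp only [mul_assoc, (hG.1 i).2.isIdempotentElem.eq]
  · intro j _ hji
    rw [show G i * (G j * y * G j) * G i = G i * G j * y * (G j * G i) by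
      simp only [mul_assoc], hG.2.1 i j (Ne.symm hji), zero_mul, zero_mul]
  · simp

end Vale.Agent.P078.MKS
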