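import Vale.Agent.P078.MKS.Assembly.Span

/-!
Padding of partitions and the behaviour of the final pieces.
-/

namespace Vale.Agent.P078.MKS

variable {H : Type} [NormedAddCommGroup H] [InnerProductSpace ℂ H] [CompleteSpace H]
variable {M A : VonNeumannAlgebra H} {e : H →L[ℂ] H}

/-- A partition padded with zeros to `r` pieces. -/
noncomputable def pad {N r : ℕ} (R : Fin N → (H →L[ℂ] H)) : Fin r → (H →L[ℂ] H) :=
  fun i => if h : (i : ℕ) < N then R ⟨i, h⟩ else 0

theorem pad_partition {N r : ℕ} (hNr : N ≤ r) {R : Fin N → (H →L[ℂ] H)}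
    (hR : IsPartition A e R) :
    IsPartition A e (pad (r := r) R) ∧ ∀ y, pinch (pad (r := r) R) y = pinch R y := by
  classical
  have hsum : ∀ f : (H →L[ℂ] H) → (H →L[ℂ] H), f 0 = 0 →
      ∑ i : Fin r, f (pad R i) = ∑ j, f (R j) := by
    intro f hf
    refine (Fintype.sum_of_injective (Fin.castLE hNr) (Fin.castLE_injective hNr) (fun j => f (R j))
      (fun i => f (pad R i)) (fun i hi => ?_) fun j => ?_).symm
    · have h : ¬((i : ℕ) < N) := fun h => hi ⟨⟨i, h⟩, Fin.ext rfl⟩
      simp only [pad, dif_neg h, hf]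
    · simp only [pad, Fin.val_castLE, dif_pos j.isLt]
  refine ⟨⟨fun i => ?_, fun i j hij => ?_, ?_⟩, fun y => ?_⟩
  · unfold pad
    split_ifs with h
    · exact hR.1 _
    · exact ⟨zero_mem A, IsStarProjection.zero _⟩
  · unfold pad
    split_ifs with h h' <;> try simp
    exact hR.2.1 _ _ fun hh => hij (Fin.ext (by simpa using congrArg Fin.val hh))
  · exact (hsum id rfl).trans hR.2.2
  · exact hsum (fun p => p * y * p) (by simp)

/-- The complement of the corner joins the first piece. -/
theorem extend_partition {p : H →L[ℂ] H} (hpA : p ∈ A) (hp : IsStarProjection p) (heA : e ∈ A)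
    (he : IsStarProjection e) (hep : e * p = e) {r : ℕ} (hr : 0 < r)
    {R : Fin r → (H →L[ℂ] H)} (hR : IsPartition A e R) :
    IsPartition A p (Function.update R ⟨0, hr⟩ (R ⟨0, hr⟩ + (p - e))) ∧
      ∀ q x : H →L[ℂ] H, q * e = q → e * q = q →
        q * pinch (Function.update R ⟨0, hr⟩ (R ⟨0, hr⟩ + (p - e))) x * q =
          q * pinch R (e * x * e) * q := by
  classical
  set P' := Function.update R ⟨0, hr⟩ (R ⟨0, hr⟩ + (p - e)) with hP'
  set c : Fin r → (H →L[ℂ] H) := fun i => if i = ⟨0, hr⟩ then p - e else 0 with hc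
  have hP'c : ∀ i, P' i = R i + c i := fun i => by
    rcases eq_or_ne i ⟨0, hr⟩ with rfl | h
    · simp [hP', hc]
    · simp [hP', hc, h]
  have hRc : ∀ i j, R i * c j = 0 ∧ c j * R i = 0 := fun i j => by
    simp only [hc]
    split_ifs
    · have h1 : R i * p = R i := by
        rw [← (hR.mul_e i).2, mul_assoc, hep]
      have h2 : p * R i = R i := by
        have := congrArg star h1
        rwa [star_mul, hp.isSelfAdjoint.star_eq, (hR.1 i).2.isSelfAdjoint.star_eq] at this
      rw [mul_sub, sub_mul, h1, h2, (hR.mul_e i).1, (hR.mul_e i).2, sub_self]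
      exact ⟨rfl, rfl⟩
    · simp
  refine ⟨⟨fun i => ?_, fun i j hij => ?_, ?_⟩, fun q x hqe heq => ?_⟩
  · rw [hP'c]
    have hci : c i ∈ A ∧ IsStarProjection (c i) := by
      simp only [hc]
      split_ifs
      · exact ⟨sub_mem hpA heA, Singular.sub_proj hp he hep⟩
      · exact ⟨zero_mem A, IsStarProjection.zero _⟩
    refine ⟨add_mem (hR.1 i).1 hci.1, ?_, (hR.1 i).2.isSelfAdjoint.add hci.2.isSelfAdjoint⟩
    show (R i + c i) * (R i + c i) = R i + c i
    simp [add_mul, mul_add, (hRc i i).1, (hRc i i).2, (hR.1 i).2.isIdempotentElem.eq,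
      hci.2.isIdempotentElem.eq]
  · rw [hP'c, hP'c]
    have hcc : c i * c j = 0 := by
      simp only [hc]
      split_ifs with h h' <;> simp_all
    simp [add_mul, mul_add, (hRc i j).1, (hRc j i).2, hR.2.1 i j hij, hcc]
  · simp only [hP'c, Finset.sum_add_distrib, hR.2.2, hc, Finset.sum_ite_eq', Finset.mem_univ,
      if_true, add_sub_cancel]
  · have hq1 : ∀ i, q * c i = 0 ∧ c i * q = 0 := fun i => by
      simp only [hc]
      split_ifs
      · have h1 : q * p = q := by rw [← hqe, mul_assoc, hep]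
        have h2 : p * q = q := by
          have hpe : p * e = e := by
            have := congrArg star hep
            rwa [star_mul, hp.isSelfAdjoint.star_eq, he.isSelfAdjoint.star_eq] at this
          rw [← heq, ← mul_assoc, hpe]
        rw [mul_sub, sub_mul, h1, h2, hqe, heq, sub_self]
        exact ⟨rfl, rfl⟩
      · simp
    simp only [pinch, Finset.mul_sum, Finset.sum_mul]
    refine Finset.sum_congr rfl fun i _ => ?_
    calc q * (P' i * x * P' i) * q = q * P' i * x * (P' i * q) := by simp only [mul_assoc]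
      _ = q * R i * x * (R i * q) := by
          rw [hP'c, mul_add, add_mul _ _ q, (hq1 i).1, (hq1 i).2, add_zero, add_zero]
      _ = q * (R i * e) * x * (e * R i * q) := by rw [(hR.mul_e i).1, (hR.mul_e i).2]
      _ = _ := by simp only [mul_assoc]

theorem pinch_fix (hA : IsMASA M A) {r : ℕ} {R : Fin r → (H →L[ℂ] H)} (hR : IsPartition A e R)
    {a : H →L[ℂ] H} (ha : a ∈ A) (hae : a * e = a) : pinch R a = a := by
  calc pinch R a = ∑ i, a * R i := Finset.sum_congr rfl fun i _ => by
        rw [hA.2.1 _ (hR.1 i).1 a ha, mul_assoc, (hR.1 i).2.isIdempotentElem.eq]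
    _ = a := by rw [← Finset.mul_sum, hR.2.2, hae]

end Vale.Agent.P078.MKS
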