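import Vale.Agent.P078.MKS.Assembly.MainSq
import Vale.Agent.P078.MKS.TypeI.Paving
import Vale.Agent.P078.MKS.Kaplansky
import Vale.Agent.P078.MKS.Trace
import Vale.Agent.P078.MKS.Cells

/-!
Measurable paving from the two-sided stage.
-/

namespace Vale.Agent.P078.MKS

open Singular

/-- Both statements handed in. -/
def HandInStatement : Prop :=
  CartanPavingSqStatement ∧
    ∃ C : ℕ, ∀ (H : Type) [NormedAddCommGroup H] [InnerProductSpace ℂ H] [CompleteSpace H]
      (M A : VonNeumannAlgebra H), IsMASA M A → (∀ y : H →L[ℂ] H, y ∈ M) →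
      ∀ x : H →L[ℂ] H, IsSelfAdjoint x →
        ∀ (ε : ℝ) (r : ℕ), 0 < ε → ε < 1 → (C : ℝ) ≤ ε ^ 2 * r → SoPavable M A 1 x ε r

/-- The hand-in from the two-sided stage. -/
theorem handIn_of (hO : TwoSidedStatement) : HandInStatement :=
  have h : CartanPavingSqStatement :=
    cartan_paving_sq_of kaplansky_ok trace_ok Op.diagonal_ok hO
  ⟨h, TypeI.bh_paving h⟩

end Vale.Agent.P078.MKS
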