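import Vale.Agent.P078.MKS.Assembly.Ops

/-!
The 2-norm of a trace on a corner.
-/

namespace Vale.Agent.P078.MKS

set_option linter.unusedSectionVars false

variable {H : Type} [NormedAddCommGroup H] [InnerProductSpace ℂ H] [CompleteSpace H]
variable {M A : VonNeumannAlgebra H} {e : H →L[ℂ] H} {τ : (H →L[ℂ] H) →ₗ[ℂ] ℂ}

/-- The 2-norm. -/
noncomputable def n2 (τ : (H →L[ℂ] H) →ₗ[ℂ] ℂ) (y : H →L[ℂ] H) : ℝ :=
  Real.sqrt (τ (star y * y)).re

omit [CompleteSpace H] in
theorem tr_rsmul (c : ℝ) (y : H →L[ℂ] H) : (τ (c • y)).re = c * (τ y).re := by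
  rw [LinearMap.map_smul_of_tower, Complex.real_smul, Complex.re_ofReal_mul]

omit [CompleteSpace H] in
theorem tr_sub (x y : H →L[ℂ] H) : (τ (x - y)).re = (τ x).re - (τ y).re := by
  rw [map_sub, Complex.sub_re]

variable (hτ : IsTrace M e τ) (he : IsStarProjection e)
include hτ he

theorem re_comm {a b : H →L[ℂ] H} (ha : Cor M e a) (hb : Cor M e b) :
    (τ (star b * a)).re = (τ (star a * b)).re := by
  have h := (hτ.1 (a + Complex.I • b) (ha.add (hb.csmul _)).1 (ha.add (hb.csmul _)).2).2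
  have h1 := (hτ.1 a ha.1 ha.2).2
  have h2 := (hτ.1 b hb.1 hb.2).2
  simp only [star_add, star_smul, add_mul, mul_add, smul_mul_assoc, mul_smul_comm, map_add,
    map_smul, smul_eq_mul, Complex.star_def, Complex.conj_I, Complex.add_im, Complex.mul_im,
    Complex.mul_re, Complex.neg_re, Complex.neg_im, Complex.I_re, Complex.I_im] at h
  linarith

theorem n2_sq {y : H →L[ℂ] H} (hy : Cor M e y) : n2 τ y ^ 2 = (τ (star y * y)).re :=
  Real.sq_sqrt (hτ.1 y hy.1 hy.2).1

omit hτ he in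
theorem n2_nonneg (y : H →L[ℂ] H) : 0 ≤ n2 τ y := Real.sqrt_nonneg _

theorem re_inner_le {a b : H →L[ℂ] H} (ha : Cor M e a) (hb : Cor M e b) :
    (τ (star a * b)).re ≤ n2 τ a * n2 τ b := by
  set X := (τ (star a * a)).re
  set Y := (τ (star a * b)).re
  set Z := (τ (star b * b)).re
  have hq : ∀ t : ℝ, 0 ≤ Z * (t * t) + 2 * Y * t + X := by
    intro t
    have h := (hτ.1 (a + t • b) (ha.add (hb.rsmul t)).1 (ha.add (hb.rsmul t)).2).1
    simp only [star_add, star_smul, star_trivial, add_mul, mul_add, smul_mul_assoc, mul_smul_comm,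
      map_add, Complex.add_re, tr_rsmul, re_comm hτ he ha hb] at h
    show 0 ≤ Z * (t * t) + 2 * Y * t + X
    nlinarith
  have hd := discrim_le_zero hq
  rw [discrim] at hd
  refine (le_abs_self Y).trans ((sq_le_sq₀ (abs_nonneg Y)
    (mul_nonneg (n2_nonneg a) (n2_nonneg b))).1 ?_)
  rw [sq_abs, mul_pow, n2_sq hτ he ha, n2_sq hτ he hb]
  nlinarith

theorem n2_add_le {a b : H →L[ℂ] H} (ha : Cor M e a) (hb : Cor M e b) :
    n2 τ (a + b) ≤ n2 τ a + n2 τ b := by
  refine (sq_le_sq₀ (n2_nonneg _) (add_nonneg (n2_nonneg _) (n2_nonneg _))).1 ?_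
  rw [n2_sq hτ he (ha.add hb), add_sq, n2_sq hτ he ha, n2_sq hτ he hb]
  simp only [star_add, add_mul, mul_add, map_add, Complex.add_re, re_comm hτ he ha hb]
  have := re_inner_le hτ he ha hb
  nlinarith

theorem n2_neg (y : H →L[ℂ] H) : n2 τ (-y) = n2 τ y := by simp [n2]

theorem n2_star {y : H →L[ℂ] H} (hy : Cor M e y) : n2 τ (star y) = n2 τ y := by
  rw [n2, n2, star_star, hτ.2.2.1 y hy.1 (star y) (hy.star' he).1 hy.2 (hy.star' he).2]

theorem n2_rsmul {c : ℝ} (hc : 0 ≤ c) (y : H →L[ℂ] H) : n2 τ (c • y) = c * n2 τ y := by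
  rw [n2, star_smul, star_trivial, smul_mul_smul_comm, tr_rsmul, Real.sqrt_mul (mul_nonneg hc hc),
    Real.sqrt_mul_self hc]
  rfl

theorem tr_nonneg {z : H →L[ℂ] H} (hz : Cor M e z) (h0 : 0 ≤ z) : 0 ≤ (τ z).re := by
  set w := cfc Real.sqrt z with hwdef
  have hws : star w = w := (cfc_predicate _ _ : IsSelfAdjoint (cfc Real.sqrt z)).star_eq
  have hww : w * w = z := by
    rw [hwdef, ← cfc_mul _ _ z]
    conv_rhs => rw [← cfc_id' ℝ z]
    exact cfc_congr fun x hx => Real.mul_self_sqrt (spectrum_nonneg_of_nonneg h0 hx)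
  have h1 : w * (1 - e) = 0 := by
    rw [← CStarRing.star_mul_self_eq_zero_iff]
    rw [star_mul, hws, he.one_sub.isSelfAdjoint.star_eq, mul_assoc, ← mul_assoc w, hww, sub_mul,
      one_mul, ← mul_assoc, hz.mul_left he, sub_self]
  have h2 : w * e = w := by rw [mul_sub, mul_one, sub_eq_zero] at h1; exact h1.symm
  have h3 : e * w = w := by
    simpa [star_mul, hws, he.isSelfAdjoint.star_eq] using congrArg star h2
  have hw : Cor M e w := Cor.of_abs he (cfc_mem hz.1 _) h3 h2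
  have := (hτ.1 w hw.1 hw.2).1
  rwa [hws, hww] at this

theorem tr_mono {x y : H →L[ℂ] H} (hx : Cor M e x) (hy : Cor M e y) (h : x ≤ y) :
    (τ x).re ≤ (τ y).re := by
  have := tr_nonneg hτ he (hy.sub hx) (sub_nonneg.2 h)
  rw [tr_sub] at this
  linarith

theorem n2_le_of_sq_le {a b : H →L[ℂ] H} (ha : Cor M e a) (hb : Cor M e b) {c : ℝ} (hc : 0 ≤ c)
    (h : star a * a ≤ c ^ 2 • (star b * b)) : n2 τ a ≤ c * n2 τ b := by
  refine (sq_le_sq₀ (n2_nonneg _) (mul_nonneg hc (n2_nonneg _))).1 ?_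
  rw [mul_pow, n2_sq hτ he ha, n2_sq hτ he hb, ← tr_rsmul]
  exact tr_mono hτ he ((ha.star' he).mul he ha) (((hb.star' he).mul he hb).rsmul _) h

theorem n2_mul_le {g y : H →L[ℂ] H} (hgy : Cor M e (g * y)) (hy : Cor M e y) :
    n2 τ (g * y) ≤ ‖g‖ * n2 τ y := by
  refine n2_le_of_sq_le hτ he hgy hy (norm_nonneg g) ?_
  have h1 : star g * g ≤ ‖g‖ ^ 2 • (1 : H →L[ℂ] H) := by
    refine (bounds_of_norm_le (IsSelfAdjoint.star_mul_self g) ?_).2
    rw [CStarRing.norm_star_mul_self, sq]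
  have h2 := conj_le h1 y
  rw [mul_smul_comm, smul_mul_assoc, mul_one] at h2
  refine le_trans (le_of_eq ?_) h2
  simp only [star_mul, mul_assoc]

theorem n2_mul_right_le {g y : H →L[ℂ] H} (hyg : Cor M e (y * g)) (hy : Cor M e y) :
    n2 τ (y * g) ≤ ‖g‖ * n2 τ y := by
  rw [← n2_star hτ he hyg, star_mul, ← n2_star hτ he hy, ← norm_star g]
  exact n2_mul_le hτ he (star_mul y g ▸ hyg.star' he) (hy.star' he)

theorem cor_pinch {r : ℕ} {P : Fin r → (H →L[ℂ] H)} (hAM : ∀ y ∈ A, y ∈ M)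
    (hP : IsPartition A e P) {y : H →L[ℂ] H} (hy : y ∈ M) : Cor M e (pinch P y) := by
  refine Cor.sum _ fun i _ => ⟨mul_mem (mul_mem (hAM _ (hP.1 i).1) hy) (hAM _ (hP.1 i).1), ?_⟩
  have h1 : e * P i = P i := by
    rw [← hP.2.2, Finset.sum_mul, Finset.sum_eq_single i (fun j _ hj => hP.2.1 j i hj)
      (by simp), (hP.1 i).2.isIdempotentElem.eq]
  have h2 : P i * e = P i := by
    rw [← hP.2.2, Finset.mul_sum, Finset.sum_eq_single i (fun j _ hj => hP.2.1 i j (Ne.symm hj))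
      (by simp), (hP.1 i).2.isIdempotentElem.eq]
  rw [← mul_assoc, ← mul_assoc, h1, mul_assoc, h2]

theorem n2_pinch_le {r : ℕ} {P : Fin r → (H →L[ℂ] H)} (hAM : ∀ y ∈ A, y ∈ M)
    (hP : IsPartition A e P) {y : H →L[ℂ] H} (hy : Cor M e y) : n2 τ (pinch P y) ≤ n2 τ y := by
  classical
  have hS : Cor M e (pinch P y) := cor_pinch hτ he hAM hP hy.1
  have hPs : ∀ i, star (P i) = P i := fun i => (hP.1 i).2.isSelfAdjoint.star_eq
  have hPe : ∀ i, e * P i = P i ∧ P i * e = P i := fun i => by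
    rw [← hP.2.2]
    constructor
    · rw [Finset.sum_mul, Finset.sum_eq_single i (fun j _ hj => hP.2.1 j i hj) (by simp),
        (hP.1 i).2.isIdempotentElem.eq]
    · rw [Finset.mul_sum, Finset.sum_eq_single i (fun j _ hj => hP.2.1 i j (Ne.symm hj))
        (by simp), (hP.1 i).2.isIdempotentElem.eq]
  have hPc : ∀ i, Cor M e (P i) := fun i => Cor.of_abs he (hAM _ (hP.1 i).1) (hPe i).1 (hPe i).2
  have h1 : (τ (star (pinch P y) * pinch P y)).re = (τ (star (pinch P y) * y)).re := by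
    have e1 : star (pinch P y) * pinch P y = ∑ i, P i * (star y * P i * y * P i) := by
      simp only [pinch, star_sum, star_mul, hPs, Finset.sum_mul, Finset.mul_sum]
      refine Finset.sum_congr rfl fun i _ => ?_
      rw [Finset.sum_eq_single i]
      · calc P i * (star y * P i) * (P i * y * P i)
            = P i * (star y * (P i * P i) * y * P i) := by simp only [mul_assoc]
          _ = _ := by rw [(hP.1 i).2.isIdempotentElem.eq]
      · intro j _ hji
        calc P j * (star y * P j) * (P i * y * P i)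
            = P j * (star y * (P j * P i) * y * P i) := by simp only [mul_assoc]
          _ = 0 := by rw [hP.2.1 j i hji]; simp
      · simp
    have e2 : star (pinch P y) * y = ∑ i, P i * (star y * P i * y) := by
      simp only [pinch, star_sum, star_mul, hPs, Finset.sum_mul, mul_assoc]
    rw [e1, e2, map_sum, map_sum, Complex.re_sum, Complex.re_sum]
    refine Finset.sum_congr rfl fun i _ => ?_
    have hX : Cor M e (star y * P i * y * P i) :=
      (((hy.star' he).mul he (hPc i)).mul he hy).mul he (hPc i)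
    have hY : Cor M e (star y * P i * y) := ((hy.star' he).mul he (hPc i)).mul he hy
    rw [hτ.2.2.1 _ (hPc i).1 _ hX.1 (hPc i).2 hX.2,
      hτ.2.2.1 _ (hPc i).1 _ hY.1 (hPc i).2 hY.2, mul_assoc _ (P i) (P i),
      (hP.1 i).2.isIdempotentElem.eq]
  have h2 := re_inner_le hτ he hS hy
  rw [← h1, ← n2_sq hτ he hS] at h2
  nlinarith [n2_nonneg (τ := τ) (pinch P y), n2_nonneg (τ := τ) y]

theorem tr_proj_le {p W D : H →L[ℂ] H} {c c₀ : ℝ} (hc : c₀ < c) (hp : Cor M e p)
    (hpp : IsStarProjection p) (_hW : Cor M e W) (hD : Cor M e D) (hWD : W ≤ c₀ • e + D)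
    (hpW : c • p ≤ p * W * p) : (τ p).re ≤ (n2 τ D / (c - c₀)) ^ 2 := by
  have hsq : n2 τ p ^ 2 = (τ p).re := by
    rw [n2_sq hτ he hp, hpp.isSelfAdjoint.star_eq, hpp.isIdempotentElem.eq]
  have h := conj_le hWD p
  rw [hpp.isSelfAdjoint.star_eq, mul_add, add_mul, mul_smul_comm, smul_mul_assoc,
    hp.mul_right he, hpp.isIdempotentElem.eq] at h
  have hpDp : Cor M e (p * D * p) := (hp.mul he hD).mul he hp
  have h' := tr_mono hτ he (hp.rsmul c) ((hp.rsmul c₀).add hpDp) (hpW.trans h)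
  rw [map_add, Complex.add_re, tr_rsmul, tr_rsmul] at h'
  have h3 : (τ (p * D * p)).re ≤ n2 τ p * n2 τ D := by
    rw [mul_assoc]
    nth_rw 1 [← hpp.isSelfAdjoint.star_eq]
    refine (re_inner_le hτ he hp (hD.mul he hp)).trans
      (mul_le_mul_of_nonneg_left ?_ (n2_nonneg _))
    exact (n2_mul_right_le hτ he (hD.mul he hp) hD).trans
      (mul_le_of_le_one_left (n2_nonneg _) hpp.norm_le)
  rw [← hsq] at h' ⊢
  have hcd : 0 < c - c₀ := sub_pos.2 hc
  refine pow_le_pow_left₀ (n2_nonneg _) ?_ 2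
  rw [le_div_iff₀ hcd]
  rcases (n2_nonneg (τ := τ) p).eq_or_lt with h0 | h0
  · rw [← h0, zero_mul]; exact n2_nonneg _
  · nlinarith

end Vale.Agent.P078.MKS
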