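import Vale.Agent.P078.MKS.Assembly.Approx
import Vale.Agent.P078.MKS.Assembly.Pad

/-!
So-paving with `O(ε⁻²)` pieces from two-sided paving.
-/

namespace Vale.Agent.P078.MKS

open Singular

variable {H : Type} [NormedAddCommGroup H] [InnerProductSpace ℂ H] [CompleteSpace H]
variable {M A : VonNeumannAlgebra H}

theorem edge_first' {b : ℝ} (hb : 1 < b) (r : ℕ) : edge (-1) 0 b r = 1 / b + b / r := by
  have h1 : b + 1 ≠ 0 := by linarith
  have h2 : b - 1 ≠ 0 := by linarith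
  have h3 : (0 : ℝ) < b := by linarith
  have h4 : ((1 - 0) / (b - -1) + (0 - -1) / (b - 1)) / (1 - -1) = b / ((b + 1) * (b - 1)) := by
    rw [sub_neg_eq_add]; field_simp; ring
  rw [edge, h4, one_div_div]
  congr 1
  field_simp
  ring

theorem tr_excess_le' {τ : (H →L[ℂ] H) →ₗ[ℂ] ℂ} {u η : ℝ} {X : H →L[ℂ] H}
    (hη : 0 ≤ η) (h : (τ (excess u X * excess u X)).re ≤ η ^ 2) :
    n2 τ (excess u X) ≤ η := by
  rw [n2, (isSelfAdjoint_excess u X).star_eq]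
  exact Real.sqrt_le_iff.2 ⟨hη, h⟩

theorem le_smul_add_excess {e S : H →L[ℂ] H} (he : IsStarProjection e) (hS : Cor M e S)
    (hs : IsSelfAdjoint S) {u : ℝ} (hu : 0 < u) : S ≤ u • e + excess u S := by
  have h := conj_le (le_add_excess hs u).2 e
  rwa [he.isSelfAdjoint.star_eq, hS.2, mul_add, add_mul, (cor_excess he hS hu hs).2, mul_smul_comm,
    smul_mul_assoc, mul_one, he.isIdempotentElem.eq] at h

/-- One two-sided stage inside a corner. -/
theorem stage_sq (hK : KaplanskyStatement) (hT : TraceStatement) (hD : DiagonalStatement)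
    (hO : TwoSidedStatement) (hA : IsMASA M A) {e : H →L[ℂ] H}
    {τ : (H →L[ℂ] H) →ₗ[ℂ] ℂ} (heA : e ∈ A) (he : IsStarProjection e) (hτ : IsTrace M e τ)
    {x : H →L[ℂ] H} (hxM : x ∈ M) (hx : IsSelfAdjoint x) (hxn : ‖x‖ ≤ 1)
    (hxb : x ∈ Set.centralizer (Set.centralizer (normStar hA : Set (H →L[ℂ] H))))
    {ε η : ℝ} (hε : 0 < ε) (hε1 : ε < 1) (hη : 0 < η) :
    ∃ (N : ℕ) (R : Fin N → (H →L[ℂ] H)) (a : H →L[ℂ] H),
      (N : ℝ) ≤ 400 / ε ^ 2 ∧ IsPartition A e R ∧ a ∈ A ∧ IsSelfAdjoint a ∧ Cor M e a ∧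
      ‖a‖ ≤ 1 ∧ ∃ D₁ D₂ : H →L[ℂ] H, Cor M e D₁ ∧ Cor M e D₂ ∧
        pinch R (e * x * e) - a ≤ (3 * ε / 4) • e + D₁ ∧
        -(pinch R (e * x * e) - a) ≤ (3 * ε / 4) • e + D₂ ∧
        n2 τ D₁ ≤ η ∧ n2 τ D₂ ≤ η := by
  classical
  set η₀ := η / 3 with hη₀def
  have hη₀ : 0 < η₀ := by positivity
  have heM : e ∈ M := hA.1 e heA
  -- stage 0
  set x' := e * x * e with hx'def
  have hx'c : Cor M e x' := ⟨mul_mem (mul_mem heM hxM) heM, by
    rw [hx'def]; simp only [← mul_assoc, he.isIdempotentElem.eq]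
    simp only [mul_assoc, he.isIdempotentElem.eq]⟩
  have hx's : IsSelfAdjoint x' := by
    have := hx.conjugate e
    rwa [he.isSelfAdjoint.star_eq] at this
  obtain ⟨b1, b2⟩ := bounds_of_norm_le hx's (c := 1) ((norm_mul_le _ _).trans
    ((mul_le_of_le_one_right (norm_nonneg _) he.norm_le).trans ((norm_mul_le _ _).trans
      ((mul_le_of_le_one_left (norm_nonneg _) he.norm_le).trans hxn))))
  have he1 : e ∈ normSpan M A 1 := by simpa using gen_mem_normSpan (M := M) heA one_mem_normaliser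
  have hx'b : x' ∈ Set.centralizer (Set.centralizer (normStar hA : Set (H →L[ℂ] H))) := by
    have heb : e ∈ Set.centralizer (Set.centralizer (normStar hA : Set (H →L[ℂ] H))) :=
      fun T hT' => (hT' e he1).symm
    exact Set.mul_mem_centralizer (Set.mul_mem_centralizer heb hxb) heb
  obtain ⟨y₀, hy₀m, hy₀s, hy₀l, hy₀u, hy₀x⟩ :=
    approx hK hT hA heA he hτ hx'c hx's hx'b zero_le_one le_rfl hη₀ b1 b2
  have hy₀c : Cor M e y₀ := normSpan_cor hA hy₀m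
  obtain ⟨n, E, hE, hEy⟩ := hD H M A hA e heA he y₀ hy₀m
  set a := pinch E y₀ with hadef
  have haA : a ∈ A := sum_mem fun i _ => hEy i
  have hac : Cor M e a := cor_pinch hτ he hA.1 hE hy₀c.1
  have has : IsSelfAdjoint a := pinch_selfAdjoint' hE hy₀s
  have han : ‖a‖ ≤ 1 := norm_le_one he has le_rfl (pinch_bounds hE hy₀l hy₀u).1
    (pinch_bounds hE hy₀l hy₀u).2
  set w₀ := (1 / 2 : ℝ) • (y₀ - a) with hw₀def
  have hw₀m : w₀ ∈ normSpan M A e :=
    Submodule.smul_of_tower_mem _ _ (sub_mem hy₀m (pinch_mem_normSpan hA hE hy₀m))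
  have hw₀s : IsSelfAdjoint w₀ := (IsSelfAdjoint.all _).smul (hy₀s.sub has)
  have hw₀c : Cor M e w₀ := normSpan_cor hA hw₀m
  have hw₀n : ‖w₀‖ ≤ 1 := by
    rw [hw₀def, norm_smul, Real.norm_of_nonneg (by norm_num : (0 : ℝ) ≤ 1 / 2)]
    have h1 := norm_le_one he hy₀s le_rfl hy₀l hy₀u
    have h2 := norm_sub_le y₀ a
    linarith
  have hEw : ∀ i, E i * w₀ * E i = 0 := fun i => by
    rw [hw₀def, mul_smul_comm, smul_mul_assoc, mul_sub, sub_mul, hadef, piece_pinch hE, sub_self,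
      smul_zero]
  obtain ⟨c1, c2⟩ := bounds_of_norm_le hw₀s hw₀n
  obtain ⟨d1, d2⟩ := conj_bounds he c1 c2
  rw [hw₀c.2] at d1 d2
  rw [one_smul] at d2
  -- the two-sided stage
  set r₁ := ⌈300 / ε ^ 2⌉₊ with hr₁def
  have hr₁ : (300 / ε ^ 2 : ℝ) ≤ r₁ := Nat.le_ceil _
  have hr₁0 : 0 < r₁ := Nat.ceil_pos.2 (by positivity)
  have hb16 : 1 < 16 / ε := by rw [lt_div_iff₀ hε]; linarith
  have hedge : edge (-1) 0 (16 / ε) r₁ < ε / 8 := by
    rw [edge_first' hb16]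
    have h1 : 16 / ε / (r₁ : ℝ) ≤ 16 * ε / 300 := by
      rw [div_le_iff₀ (by exact_mod_cast hr₁0)]
      calc 16 / ε = 16 * ε / 300 * (300 / ε ^ 2) := by field_simp
        _ ≤ _ := mul_le_mul_of_nonneg_left hr₁ (by positivity)
    rw [one_div_div]
    linarith
  obtain ⟨P, hP, hP₁, hP₂⟩ := hO H M A e τ hA heA he hτ w₀ hw₀m hw₀s d1 d2 n E hE hEw r₁
    (16 / ε) (ε / 8) (η₀ ^ 2) hr₁0 hb16 hedge (by positivity)
  set S := pinch P w₀ with hSdef
  set err := pinch P (x' - y₀) with herrdef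
  have hu : (0 : ℝ) < 3 * (ε / 8) := by positivity
  have hSc : Cor M e S := cor_pinch hτ he hA.1 hP hw₀c.1
  have hSs : IsSelfAdjoint S := pinch_selfAdjoint' hP hw₀s
  have hd₁c := cor_excess he hSc hu hSs
  have hd₂c := cor_excess he hSc.neg hu hSs.neg
  have hxy : Cor M e (x' - y₀) := hx'c.sub hy₀c
  have herrc : Cor M e err := cor_pinch hτ he hA.1 hP hxy.1
  have herrn : n2 τ err ≤ η₀ := by
    refine (n2_pinch_le hτ he hA.1 hP hxy).trans ?_
    rw [← neg_sub y₀ x', n2_neg hτ he]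
    exact hy₀x
  have hW : pinch P x' - a = (2 : ℝ) • S + err := by
    have e1 : pinch P y₀ - a = (2 : ℝ) • S := by
      rw [hSdef, hw₀def, pinch_smul, smul_smul, pinch_sub, pinch_fix hA hP haA (hac.mul_right he)]
      norm_num
    rw [herrdef, pinch_sub, ← e1]
    abel
  refine ⟨r₁, P, a, ?_, hP, haA, has, hac, han,
    (2 : ℝ) • excess (3 * (ε / 8)) S + err, (2 : ℝ) • excess (3 * (ε / 8)) (-S) + -err,
    (hd₁c.rsmul 2).add herrc, (hd₂c.rsmul 2).add herrc.neg, ?_, ?_, ?_, ?_⟩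
  · refine (Nat.ceil_lt_add_one (by positivity)).le.trans ?_
    rw [div_add_one (by positivity : ε ^ 2 ≠ 0)]
    gcongr
    nlinarith
  · rw [hW, ← add_assoc]
    have h := smul_le_smul_of_nonneg_left (le_smul_add_excess he hSc hSs hu)
      (zero_le_two : (0 : ℝ) ≤ 2)
    rw [smul_add, smul_smul, show (2 : ℝ) * (3 * (ε / 8)) = 3 * ε / 4 by ring] at h
    exact add_le_add h le_rfl
  · rw [hW, ← add_assoc, neg_add, ← smul_neg]
    have h := smul_le_smul_of_nonneg_left (le_smul_add_excess he hSc.neg hSs.neg hu)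
      (zero_le_two : (0 : ℝ) ≤ 2)
    rw [smul_add, smul_smul, show (2 : ℝ) * (3 * (ε / 8)) = 3 * ε / 4 by ring] at h
    exact add_le_add h le_rfl
  · refine (n2_add_le hτ he (hd₁c.rsmul 2) herrc).trans ?_
    rw [n2_rsmul hτ he zero_le_two]
    have := tr_excess_le' hη₀.le hP₁
    linarith
  · refine (n2_add_le hτ he (hd₂c.rsmul 2) herrc.neg).trans ?_
    rw [n2_rsmul hτ he zero_le_two, n2_neg hτ he]
    have := tr_excess_le' hη₀.le hP₂
    linarith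

/-- Paving of a contraction. -/
theorem contraction_sq (hK : KaplanskyStatement) (hT : TraceStatement) (hD : DiagonalStatement)
    (hO : TwoSidedStatement) (hA : IsMASA M A) {p : H →L[ℂ] H} (hpA : p ∈ A)
    (hpp : IsStarProjection p)
    (htr : ∀ (F : Finset H) (δ : ℝ), 0 < δ → ∃ (e : H →L[ℂ] H) (τ : (H →L[ℂ] H) →ₗ[ℂ] ℂ),
      e ∈ A ∧ IsStarProjection e ∧ e * p = e ∧ IsTrace M e τ ∧ ∀ ξ ∈ F, ‖(p - e) ξ‖ < δ)
    {x : H →L[ℂ] H} (hxM : x ∈ M) (hx : IsSelfAdjoint x) (hxn : ‖x‖ ≤ 1)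
    (hxb : x ∈ Set.centralizer (Set.centralizer (normStar hA : Set (H →L[ℂ] H))))
    {ε : ℝ} {r : ℕ} (hε : 0 < ε) (hε1 : ε < 1) (hr : (400 : ℝ) ≤ ε ^ 2 * r)
    (F : Finset H) {δ : ℝ} (hδ : 0 < δ) :
    ∃ (P : Fin r → (H →L[ℂ] H)) (a q : H →L[ℂ] H),
      IsPartition A p P ∧ a ∈ A ∧ IsSelfAdjoint a ∧ a * p = a ∧ ‖a‖ ≤ 1 ∧ q ∈ M ∧
      IsStarProjection q ∧ q * p = q ∧ (∀ ξ ∈ F, ‖(p - q) ξ‖ < δ) ∧ ‖q * (pinch P x - a) * q‖ ≤ ε := by
  obtain ⟨e, τ, heA, he, hep, hτ, heF⟩ := htr F (δ / 3) (by positivity)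
  have heM : e ∈ M := hA.1 e heA
  obtain ⟨η₁, hη₁, hη₁F⟩ := (hT H M e τ heM he hτ).1 F (δ / 3) (by positivity)
  set η := ε / 4 * Real.sqrt η₁ / 2 with hηdef
  have hs0 : 0 < Real.sqrt η₁ := Real.sqrt_pos.2 hη₁
  have hη : 0 < η := by positivity
  obtain ⟨N, R, a, hN, hR, haA, has, hac, han, D₁, D₂, hD₁, hD₂, hW₁, hW₂, hn₁, hn₂⟩ :=
    stage_sq hK hT hD hO hA heA he hτ hxM hx hxn hxb hε hε1 hη
  have hNr : N ≤ r := by
    refine Nat.cast_le (α := ℝ).1 (hN.trans ?_)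
    rw [div_le_iff₀ (by positivity), mul_comm]
    exact hr
  have hr0 : 0 < r := Nat.pos_of_ne_zero fun h => by subst h; norm_num at hr
  obtain ⟨hpad, hpadp⟩ := pad_partition hNr hR
  obtain ⟨hP', hP'q⟩ := extend_partition hpA hpp heA he hep hr0 hpad
  set W := pinch R (e * x * e) - a with hWdef
  have hxc : Cor M e (e * x * e) := ⟨mul_mem (mul_mem heM hxM) heM, by
    simp only [← mul_assoc, he.isIdempotentElem.eq]
    simp only [mul_assoc, he.isIdempotentElem.eq]⟩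
  have hWc : Cor M e W := (cor_pinch hτ he hA.1 hR hxc.1).sub hac
  have hWs : IsSelfAdjoint W := by
    have := hx.conjugate e
    rw [he.isSelfAdjoint.star_eq] at this
    exact (pinch_selfAdjoint' hR this).sub has
  obtain ⟨p₁, p₂, hp₁, hp₁p, hp₂, hp₂p, hl₁, hl₂, hq, hqW⟩ := cut_two he hWc hWs hε
  have hsmall : ∀ {D p : H →L[ℂ] H} {c₀ : ℝ}, c₀ ≤ 3 * ε / 4 → n2 τ D ≤ η →
      (τ p).re ≤ (n2 τ D / (ε - c₀)) ^ 2 → (τ p).re < η₁ := by
    intro D p c₀ hc hn h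
    refine lt_of_le_of_lt h ?_
    have h1 : n2 τ D / (ε - c₀) ≤ Real.sqrt η₁ / 2 := by
      rw [div_le_iff₀ (by linarith)]
      refine hn.trans (le_of_eq_of_le (by rw [hηdef]; ring)
        (mul_le_mul_of_nonneg_left (by linarith : ε / 4 ≤ ε - c₀) (by positivity)))
    calc (n2 τ D / (ε - c₀)) ^ 2 ≤ (Real.sqrt η₁ / 2) ^ 2 :=
          pow_le_pow_left₀ (div_nonneg (n2_nonneg _) (by linarith)) h1 2
      _ = η₁ / 4 := by rw [div_pow, Real.sq_sqrt hη₁.le]; norm_num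
      _ < η₁ := by linarith
  have hv₁ := hη₁F p₁ hp₁.1 hp₁p hp₁.2 (hsmall le_rfl hn₁
    (tr_proj_le hτ he (by linarith) hp₁ hp₁p hWc hD₁ hW₁ hl₁))
  have hv₂ := hη₁F p₂ hp₂.1 hp₂p hp₂.2 (hsmall le_rfl hn₂
    (tr_proj_le hτ he (by linarith) hp₂ hp₂p hWc.neg hD₂ hW₂ hl₂))
  set q := e - (p₁ + p₂) with hqdef
  have hqe : q * e = q := by
    rw [hqdef, sub_mul, add_mul, he.isIdempotentElem.eq, hp₁.mul_right he, hp₂.mul_right he]
  refine ⟨_, a, q, hP', haA, has, by rw [← hac.mul_right he, mul_assoc, hep], han,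
    sub_mem heM (add_mem hp₁.1 hp₂.1), hq, by rw [← hqe, mul_assoc, hep], fun ξ hξ => ?_, ?_⟩
  · have : (p - q) ξ = (p - e) ξ + (p₁ ξ + p₂ ξ) := by
      simp only [hqdef, sub_apply, add_apply]; abel
    rw [this]
    refine lt_of_le_of_lt ((norm_add_le _ _).trans (add_le_add le_rfl (norm_add_le _ _))) ?_
    have := heF ξ hξ
    have := hv₁ ξ hξ
    have := hv₂ ξ hξ
    linarith
  · have heq : e * q = q := by
      rw [hqdef, mul_sub, mul_add, he.isIdempotentElem.eq, hp₁.mul_left he, hp₂.mul_left he]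
    clear_value q
    rw [mul_sub, sub_mul, hP'q q x hqe heq, hpadp, ← sub_mul, ← mul_sub]
    exact hqW

/-- So-paving with `O(ε⁻²)` pieces from the operator-algebraic statements. -/
theorem cartan_paving_sq_of (hK : KaplanskyStatement) (hT : TraceStatement) (hD : DiagonalStatement)
    (hO : TwoSidedStatement) : CartanPavingSqStatement := by
  refine ⟨400, fun H _ _ _ M A hA p hpA hpp htr x hxM hx hxb ε r hε hε1 hr F δ hδ => ?_⟩
  push_cast at hr
  have hb := centralizer_mono_normStar hA hxb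
  rcases eq_or_ne x 0 with rfl | hx0
  · obtain ⟨P, a, q, hP, -, -, -, -, hqM, hq, hqp, hqF, -⟩ :=
      contraction_sq hK hT hD hO hA hpA hpp htr
      (zero_mem M) (.zero _) (by simp) hb hε hε1 hr F hδ
    exact ⟨P, 0, q, hP.1, hP.2.1, hP.2.2, zero_mem A, .zero _, by simp, le_rfl, hqM, hq,
      hqp, hqF, by simp⟩
  · have hn : 0 < ‖x‖ := norm_pos_iff.2 hx0
    have hxb' : ‖x‖⁻¹ • x ∈ Set.centralizer (Set.centralizer
        (normStar hA : Set (H →L[ℂ] H))) := fun T hT' => by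
      rw [mul_smul_comm, smul_mul_assoc, hb T hT']
    obtain ⟨P, a, q, hP, haA, has, hap, han, hqM, hq, hqp, hqF, hqW⟩ :=
      contraction_sq hK hT hD hO hA hpA hpp htr
      (vn_smul M ‖x‖⁻¹ hxM) ((IsSelfAdjoint.all _).smul hx)
      (by rw [norm_smul, norm_inv, norm_norm, inv_mul_cancel₀ hn.ne']) hxb' hε hε1 hr F hδ
    refine ⟨P, ‖x‖ • a, q, hP.1, hP.2.1, hP.2.2, vn_smul A _ haA,
      (IsSelfAdjoint.all _).smul has, by rw [smul_mul_assoc, hap], ?_, hqM, hq, hqp, hqF, ?_⟩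
    · rw [norm_smul, norm_norm]
      exact mul_le_of_le_one_right (norm_nonneg _) han
    · have : (∑ i, P i * x * P i) - ‖x‖ • a = ‖x‖ • (pinch P (‖x‖⁻¹ • x) - a) := by
        rw [smul_sub, pinch_smul, smul_smul, mul_inv_cancel₀ hn.ne', one_smul]
        rfl
      rw [this, mul_smul_comm, smul_mul_assoc, norm_smul, norm_norm, mul_comm ε]
      exact mul_le_mul_of_nonneg_left hqW hn.le

end Vale.Agent.P078.MKS
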