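import Vale.Agent.P078.MKS.OpDefs
import Vale.Agent.P078.Spectral
import Vale.Agent.P078.Singular.Cut

/-!
Corners, pinchings, excesses and the final spectral cuts.
-/

namespace Vale.Agent.P078.MKS

open scoped InnerProductSpace

variable {H : Type} [NormedAddCommGroup H] [InnerProductSpace ℂ H] [CompleteSpace H]
variable {M A : VonNeumannAlgebra H} {e : H →L[ℂ] H}

theorem vn_smul (M : VonNeumannAlgebra H) (c : ℝ) {y : H →L[ℂ] H} (hy : y ∈ M) : c • y ∈ M := by
  rw [RCLike.real_smul_eq_coe_smul (K := ℂ)]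
  exact M.toStarSubalgebra.smul_mem hy _

/-- An element of the corner at `e`. -/
def Cor (M : VonNeumannAlgebra H) (e y : H →L[ℂ] H) : Prop := y ∈ M ∧ e * y * e = y

theorem Cor.zero : Cor M e 0 := ⟨zero_mem _, by simp⟩

theorem Cor.add {x y : H →L[ℂ] H} (hx : Cor M e x) (hy : Cor M e y) : Cor M e (x + y) :=
  ⟨add_mem hx.1 hy.1, by rw [mul_add, add_mul, hx.2, hy.2]⟩

theorem Cor.neg {x : H →L[ℂ] H} (hx : Cor M e x) : Cor M e (-x) :=
  ⟨neg_mem hx.1, by rw [mul_neg, neg_mul, hx.2]⟩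

theorem Cor.sub {x y : H →L[ℂ] H} (hx : Cor M e x) (hy : Cor M e y) : Cor M e (x - y) :=
  sub_eq_add_neg x y ▸ hx.add hy.neg

theorem Cor.rsmul (c : ℝ) {x : H →L[ℂ] H} (hx : Cor M e x) : Cor M e (c • x) :=
  ⟨vn_smul M c hx.1, by rw [mul_smul_comm, smul_mul_assoc, hx.2]⟩

theorem Cor.csmul (c : ℂ) {x : H →L[ℂ] H} (hx : Cor M e x) : Cor M e (c • x) :=
  ⟨M.toStarSubalgebra.smul_mem hx.1 c, by rw [mul_smul_comm, smul_mul_assoc, hx.2]⟩

theorem Cor.mul_left (he : IsStarProjection e) {x : H →L[ℂ] H} (hx : Cor M e x) : e * x = x := by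
  conv_lhs => rw [← hx.2, ← mul_assoc, ← mul_assoc, he.isIdempotentElem.eq]
  rw [hx.2]

theorem Cor.mul_right (he : IsStarProjection e) {x : H →L[ℂ] H} (hx : Cor M e x) : x * e = x := by
  conv_lhs => rw [← hx.2, mul_assoc, he.isIdempotentElem.eq]
  rw [hx.2]

theorem Cor.mul (he : IsStarProjection e) {x y : H →L[ℂ] H} (hx : Cor M e x) (hy : Cor M e y) :
    Cor M e (x * y) :=
  ⟨mul_mem hx.1 hy.1, by rw [← mul_assoc, hx.mul_left he, mul_assoc, hy.mul_right he]⟩

theorem Cor.star' (he : IsStarProjection e) {x : H →L[ℂ] H} (hx : Cor M e x) :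
    Cor M e (star x) :=
  ⟨star_mem hx.1, by
    have := congrArg star hx.2
    rwa [star_mul, star_mul, he.isSelfAdjoint.star_eq, ← mul_assoc] at this⟩

theorem Cor.of_abs (_he : IsStarProjection e) {x : H →L[ℂ] H} (hxM : x ∈ M) (h1 : e * x = x)
    (h2 : x * e = x) : Cor M e x :=
  ⟨hxM, by rw [h1, h2]⟩

theorem cor_proj (heM : e ∈ M) (he : IsStarProjection e) : Cor M e e :=
  ⟨heM, by rw [he.isIdempotentElem.eq, he.isIdempotentElem.eq]⟩

theorem Cor.sum {ι : Type*} (s : Finset ι) {f : ι → (H →L[ℂ] H)} (h : ∀ i ∈ s, Cor M e (f i)) :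
    Cor M e (∑ i ∈ s, f i) :=
  ⟨sum_mem fun i hi => (h i hi).1, by
    rw [Finset.mul_sum, Finset.sum_mul]; exact Finset.sum_congr rfl fun i hi => (h i hi).2⟩

theorem smul_le_smul_right' {c d : ℝ} {x : H →L[ℂ] H} (hcd : c ≤ d) (hx : 0 ≤ x) :
    c • x ≤ d • x := by
  rw [← sub_nonneg, ← sub_smul]
  exact smul_nonneg (sub_nonneg.2 hcd) hx

theorem proj_le_one {p : H →L[ℂ] H} (hp : IsStarProjection p) : p ≤ 1 :=
  sub_nonneg.1 hp.one_sub.nonneg

theorem conj_le {x y : H →L[ℂ] H} (h : x ≤ y) (p : H →L[ℂ] H) :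
    star p * x * p ≤ star p * y * p :=
  star_left_conjugate_le_conjugate h p

theorem bounds_of_norm_le {x : H →L[ℂ] H} (hx : IsSelfAdjoint x) {c : ℝ} (h : ‖x‖ ≤ c) :
    (-c) • (1 : H →L[ℂ] H) ≤ x ∧ x ≤ c • 1 := by
  rw [← Algebra.algebraMap_eq_smul_one, ← Algebra.algebraMap_eq_smul_one]
  have hs : ∀ t ∈ spectrum ℝ x, |t| ≤ c := fun t ht =>
    (((Real.norm_eq_abs t).symm.le.trans (spectrum.norm_le_norm_mul_of_mem ht)).trans
      (mul_le_of_le_one_right (norm_nonneg _) ContinuousLinearMap.norm_id_le)).trans h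
  exact ⟨(algebraMap_le_iff_le_spectrum hx).2 fun t ht => (abs_le.1 (hs t ht)).1,
    (le_algebraMap_iff_spectrum_le hx).2 fun t ht => (abs_le.1 (hs t ht)).2⟩

theorem norm_le_of_bounds {x : H →L[ℂ] H} (hx : IsSelfAdjoint x) {c : ℝ} (hc : 0 ≤ c)
    (h1 : (-c) • (1 : H →L[ℂ] H) ≤ x) (h2 : x ≤ c • 1) : ‖x‖ ≤ c := by
  rw [← Algebra.algebraMap_eq_smul_one] at h1 h2
  rw [show x = cfc (id : ℝ → ℝ) x from (cfc_id ℝ x).symm]
  refine norm_cfc_le hc fun t ht => ?_
  rw [Real.norm_eq_abs]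
  exact abs_le.2 ⟨(algebraMap_le_iff_le_spectrum hx).1 h1 t ht, (le_algebraMap_iff_spectrum_le hx).1 h2 t ht⟩

theorem conj_bounds (he : IsStarProjection e) {x : H →L[ℂ] H} {l u : ℝ}
    (h1 : l • (1 : H →L[ℂ] H) ≤ x) (h2 : x ≤ u • 1) :
    l • e ≤ e * x * e ∧ e * x * e ≤ u • e := by
  have a := conj_le h1 e
  have b := conj_le h2 e
  rw [he.isSelfAdjoint.star_eq, mul_smul_comm, smul_mul_assoc, mul_one,
    he.isIdempotentElem.eq] at a b
  exact ⟨a, b⟩

theorem isSelfAdjoint_excess (u : ℝ) (y : H →L[ℂ] H) : IsSelfAdjoint (excess u y) :=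
  cfc_predicate _ _

theorem le_add_excess {y : H →L[ℂ] H} (hy : IsSelfAdjoint y) (u : ℝ) :
    y - excess u y = cfc (fun x : ℝ => min x u) y ∧ y ≤ u • 1 + excess u y := by
  have h : y - excess u y = cfc (fun x : ℝ => min x u) y := by
    rw [excess]
    conv_lhs => arg 1; rw [← cfc_id' ℝ y]
    rw [← cfc_sub _ _ y]
    refine cfc_congr fun x _ => ?_
    rcases le_total x u with h | h <;> simp [h]
  refine ⟨h, ?_⟩
  rw [← sub_le_iff_le_add, h, ← Algebra.algebraMap_eq_smul_one]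
  exact cfc_le_algebraMap _ u y (fun x _ => min_le_right x u)

theorem cor_excess (he : IsStarProjection e) {y : H →L[ℂ] H} (hy : Cor M e y) {u : ℝ} (hu : 0 < u)
    (hys : IsSelfAdjoint y) : Cor M e (excess u y) := by
  have hc : ContinuousOn (fun x : ℝ => max (x - u) 0 / max x u) (spectrum ℝ y) :=
    ContinuousOn.div (by fun_prop) (by fun_prop) fun x _ => (lt_max_of_lt_right hu).ne'
  have hk : excess u y = y * cfc (fun x : ℝ => max (x - u) 0 / max x u) y := by
    conv_rhs => arg 1; rw [← cfc_id' ℝ y]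
    rw [excess, ← cfc_mul (fun x : ℝ => x) _ y (by fun_prop) hc]
    refine cfc_congr fun x _ => ?_
    rcases le_total x u with h | h
    · simp [h]
    · rw [max_eq_left h, max_eq_left (sub_nonneg.2 h),
        mul_div_cancel₀ _ (ne_of_gt (lt_of_lt_of_le hu h))]
  have h1 : e * excess u y = excess u y := by rw [hk, ← mul_assoc, hy.mul_left he]
  refine Cor.of_abs he (cfc_mem hy.1 _) h1 ?_
  simpa [star_mul, he.isSelfAdjoint.star_eq, (isSelfAdjoint_excess u y).star_eq] using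
    congrArg star h1

/-- The spectral projection above `c` of a self-adjoint element of the corner. -/
theorem cut_above (he : IsStarProjection e) {W : H →L[ℂ] H} (hW : Cor M e W)
    (hWs : IsSelfAdjoint W) {c : ℝ} (hc : 0 < c) :
    Cor M e (spProj W c) ∧ IsStarProjection (spProj W c) ∧
      c • spProj W c ≤ spProj W c * W * spProj W c ∧
      (∀ q, IsStarProjection q → q * spProj W c = 0 → q * W * q ≤ c • q) := by
  obtain ⟨hpM, hp⟩ := isPr_spProj hW.1 c
  set p := spProj W c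
  set g := excess c W with hgdef
  have hg : Cor M e g := cor_excess he hW hc hWs
  have hpg : p * g = g := spProj_mul W c
  have hgs : star g = g := (isSelfAdjoint_excess c W).star_eq
  have hgp : g * p = g := by
    simpa [star_mul, hp.isSelfAdjoint.star_eq, hgs] using congrArg star hpg
  have hep : e * p = p := by
    have := mul_spProj_eq_zero (y := W) (t := c) (z := 1 - e)
      (by show (1 - e) * g = 0; rw [sub_mul, one_mul, hg.mul_left he, sub_self])
    rw [sub_mul, one_mul, sub_eq_zero] at this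
    exact this.symm
  have hpe : p * e = p := by
    simpa [star_mul, hp.isSelfAdjoint.star_eq, he.isSelfAdjoint.star_eq] using congrArg star hep
  have hmp : (W - g) * p = c • p := by
    have hn : cfc (fun x : ℝ => max (c - x) 0) W * p = 0 := by
      refine mul_spProj_eq_zero ?_
      rw [← cfc_mul _ _ W]
      conv_rhs => rw [← cfc_const_zero ℝ W]
      refine cfc_congr fun x _ => ?_
      rcases le_total x c with h | h <;> simp [h]
    have e1 : W - g = c • 1 - cfc (fun x : ℝ => max (c - x) 0) W := by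
      rw [hgdef, (le_add_excess hWs c).1, ← Algebra.algebraMap_eq_smul_one, ← cfc_const c W,
        ← cfc_sub _ _ W]
      refine cfc_congr fun x _ => ?_
      rcases le_total x c with h | h <;> simp [h]
    rw [e1, sub_mul, hn, sub_zero, smul_mul_assoc, one_mul]
  refine ⟨Cor.of_abs he hpM hep hpe, hp, ?_, fun q hq hqp => ?_⟩
  · have e2 : p * W * p = c • p + p * g * p := by
      conv_lhs => rw [← sub_add_cancel W g, mul_add, add_mul, mul_assoc p (W - g), hmp,
        mul_smul_comm, hp.isIdempotentElem.eq]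
    rw [e2]
    refine le_add_of_nonneg_right ?_
    have h := star_left_conjugate_nonneg (cfc_nonneg (a := W)
      (f := fun x : ℝ => max (x - c) 0) fun x _ => le_max_right _ _) p
    rwa [hp.isSelfAdjoint.star_eq] at h
  · have hqg : q * g = 0 := by rw [← hpg, ← mul_assoc, hqp, zero_mul]
    have h := conj_le (le_add_excess hWs c).2 q
    rwa [hq.isSelfAdjoint.star_eq, mul_add, add_mul, hqg, zero_mul, add_zero, mul_smul_comm,
      mul_one, smul_mul_assoc, hq.isIdempotentElem.eq] at h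

/-- The cuts above `c` and below `-c`. -/
theorem cut_two (he : IsStarProjection e) {W : H →L[ℂ] H} (hW : Cor M e W) (hWs : IsSelfAdjoint W)
    {c : ℝ} (hc : 0 < c) :
    ∃ p₁ p₂ : H →L[ℂ] H, Cor M e p₁ ∧ IsStarProjection p₁ ∧ Cor M e p₂ ∧ IsStarProjection p₂ ∧
      c • p₁ ≤ p₁ * W * p₁ ∧ c • p₂ ≤ p₂ * (-W) * p₂ ∧ IsStarProjection (e - (p₁ + p₂)) ∧
      ‖(e - (p₁ + p₂)) * W * (e - (p₁ + p₂))‖ ≤ c := by
  obtain ⟨h1, hp1, hl1, hq1⟩ := cut_above he hW hWs hc
  obtain ⟨h2, hp2, hl2, hq2⟩ := cut_above he hW.neg hWs.neg hc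
  set p₁ := spProj W c
  set p₂ := spProj (-W) c
  refine ⟨p₁, p₂, h1, hp1, h2, hp2, hl1, hl2, ?_⟩
  have h0 : excess c (-W) * excess c W = 0 := by
    rw [excess, excess, ← cfc_comp_neg (fun x : ℝ => max (x - c) 0) W, ← cfc_mul _ _ W]
    conv_rhs => rw [← cfc_const_zero ℝ W]
    refine cfc_congr fun x _ => ?_
    rcases le_total x c with h | h
    · simp [h]
    · rw [max_eq_right (by linarith : -x - c ≤ 0), zero_mul]
  have h3 : p₁ * excess c (-W) = 0 := by
    have h := congrArg star (mul_spProj_eq_zero h0)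
    rwa [star_mul, hp1.isSelfAdjoint.star_eq, (isSelfAdjoint_excess c (-W)).star_eq,
      star_zero] at h
  have h4 : p₁ * p₂ = 0 := mul_spProj_eq_zero h3
  have h5 : p₂ * p₁ = 0 := by
    simpa [star_mul, hp1.isSelfAdjoint.star_eq, hp2.isSelfAdjoint.star_eq] using congrArg star h4
  set q := e - (p₁ + p₂) with hqdef
  have hq : IsStarProjection q := by
    refine ⟨?_, he.isSelfAdjoint.sub (hp1.isSelfAdjoint.add hp2.isSelfAdjoint)⟩
    show q * q = q
    simp only [hqdef, sub_mul, mul_sub, add_mul, mul_add, h1.mul_left he, h1.mul_right he,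
      h2.mul_left he, h2.mul_right he, h4, h5, he.isIdempotentElem.eq, hp1.isIdempotentElem.eq,
      hp2.isIdempotentElem.eq]
    abel
  refine ⟨hq, ?_⟩
  have hz1 : q * p₁ = 0 := by
    simp only [hqdef, sub_mul, add_mul, h1.mul_left he, hp1.isIdempotentElem.eq, h5]; abel
  have hz2 : q * p₂ = 0 := by
    simp only [hqdef, sub_mul, add_mul, h2.mul_left he, hp2.isIdempotentElem.eq, h4]; abel
  refine norm_le_of_bounds ?_ hc.le ?_ ?_
  · rw [IsSelfAdjoint, star_mul, star_mul, hq.isSelfAdjoint.star_eq, hWs.star_eq, mul_assoc]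
  · have h := hq2 q hq hz2
    rw [mul_neg, neg_mul, neg_le, ← neg_smul] at h
    refine le_trans ?_ h
    rw [neg_smul, neg_smul, neg_le_neg_iff]
    exact smul_le_smul_of_nonneg_left (proj_le_one hq) hc.le
  · exact (hq1 q hq hz1).trans (smul_le_smul_of_nonneg_left (proj_le_one hq) hc.le)

end Vale.Agent.P078.MKS
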